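import Mathlib
import Vale.Agent.Lib.P058.Defs

/-!
# P058: assembly of the kite theorem from the leaf lemmas (as hypotheses)
-/

namespace Vale.Agent.Lib.P058.H46

open Vale.Agent.Lib.P058

theorem kite_soluble_of
    (hgroup : ∀ (n : ℕ), 0 < n → ∀ a : ℂ, ∃ G : Subgroup (E2 ≃ᵢ E2), Group.IsSolvable G ∧
      (∀ g ∈ G, ∀ p ∈ Xset n a, g p ∈ Xset n a) ∧
      (∀ p ∈ Xset n a, ∀ q ∈ Xset n a, ∃ g ∈ G, g p = q))
    (hfin : ∀ (n : ℕ), 0 < n → ∀ a : ℂ, (Xset n a).Finite)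
    (hpoints : ∀ (n j k : ℕ), 0 < j → 0 < k → 2 * j ≤ n → 2 * k ≤ n → j + k < n →
      ∃ (a b c d : ℂ) (t : ℝ), b ∈ Dorb n a ∧ c ∈ Dorb n a ∧ d ∈ Dorb n a ∧ a ≠ c ∧
        Complex.normSq b = Complex.normSq a ∧ Complex.normSq c = Complex.normSq a ∧
        Complex.normSq d = Complex.normSq a ∧
        b + d = (1 + (t : ℂ)) * a + (1 - (t : ℂ)) * c ∧
        (1 + t) * Real.sin (Real.pi * j / n) ^ 2 = (1 - t) * Real.sin (Real.pi * k / n) ^ 2)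
    (hnorms : ∀ (a b c d : ℂ) (t : ℝ), Complex.normSq b = Complex.normSq a →
      Complex.normSq c = Complex.normSq a → Complex.normSq d = Complex.normSq a →
      b + d = (1 + (t : ℂ)) * a + (1 - (t : ℂ)) * c →
      Complex.normSq (a - b) + Complex.normSq (a - d) = (1 - t) * Complex.normSq (a - c) ∧
      Complex.normSq (c - b) + Complex.normSq (c - d) = (1 + t) * Complex.normSq (a - c) ∧
      Complex.normSq (b - d) = (1 - t ^ 2) * Complex.normSq (a - c))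
    (harith : ∀ (N t sa sb : ℝ), 0 < N → 0 < sa → 0 < sb →
      (1 + t) * sa ^ 2 = (1 - t) * sb ^ 2 →
      ∃ s : ℝ, 0 < s ∧ Real.sqrt ((1 - t) * N) = s * sa ∧ Real.sqrt ((1 + t) * N) = s * sb ∧
        Real.sqrt (2 * N) = s * Real.sqrt (sa ^ 2 + sb ^ 2) ∧
        Real.sqrt (2 * ((1 - t ^ 2) * N)) = 2 * s * sa * sb / Real.sqrt (sa ^ 2 + sb ^ 2))
    (hmk : ∀ x y : ℂ, mk2 x y 0 = x ∧ mk2 x y 1 = y)
    (hdist : ∀ x0 x1 y0 y1 : ℂ, dist (mk2 x0 x1) (mk2 y0 y1)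
      = Real.sqrt (Complex.normSq (x0 - y0) + Complex.normSq (x1 - y1)))
    (n j k : ℕ) (hj : 0 < j) (hk : 0 < k) (hjn : 2 * j ≤ n) (hkn : 2 * k ≤ n)
    (hjk : j + k < n) (σ : ℝ) (hσ : 0 < σ) :
    ∃ (X : Set (EuclideanSpace ℂ (Fin 2)))
      (G : Subgroup (EuclideanSpace ℂ (Fin 2) ≃ᵢ EuclideanSpace ℂ (Fin 2))),
      X.Finite ∧ Group.IsSolvable G ∧
      (∀ g ∈ G, ∀ p ∈ X, g p ∈ X) ∧
      (∀ p ∈ X, ∀ q ∈ X, ∃ g ∈ G, g p = q) ∧
      ∃ a ∈ X, ∃ b ∈ X, ∃ c ∈ X, ∃ d ∈ X,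
        dist a b = σ * Real.sin (Real.pi * j / n) ∧ dist a d = σ * Real.sin (Real.pi * j / n) ∧
        dist c b = σ * Real.sin (Real.pi * k / n) ∧ dist c d = σ * Real.sin (Real.pi * k / n) ∧
        dist a c = σ * Real.sqrt (Real.sin (Real.pi * j / n) ^ 2 + Real.sin (Real.pi * k / n) ^ 2) ∧
        dist b d = 2 * σ * Real.sin (Real.pi * j / n) * Real.sin (Real.pi * k / n)
          / Real.sqrt (Real.sin (Real.pi * j / n) ^ 2 + Real.sin (Real.pi * k / n) ^ 2) := by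
  have hn : 0 < n := by omega
  have hnR : (0 : ℝ) < n := by exact_mod_cast hn
  obtain ⟨a, b, c, d, t, hb, hc, hd, hac, nb, nc, nd, hrel, ht⟩ := hpoints n j k hj hk hjn hkn hjk
  obtain ⟨e1, e2, e3⟩ := hnorms a b c d t nb nc nd hrel
  have hN : 0 < Complex.normSq (a - c) := Complex.normSq_pos.2 (sub_ne_zero.2 hac)
  -- positivity of the sines
  have hsin : ∀ i : ℕ, 0 < i → 2 * i ≤ n → 0 < Real.sin (Real.pi * i / n) := by
    intro i hi hin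
    have hiR : (0 : ℝ) < i := by exact_mod_cast hi
    have hinR : (2 : ℝ) * i ≤ n := by exact_mod_cast hin
    apply Real.sin_pos_of_pos_of_lt_pi
    · positivity
    · rw [div_lt_iff₀ hnR]
      have hpi := Real.pi_pos
      nlinarith
  have hsa := hsin j hj hjn
  have hsb := hsin k hk hkn
  obtain ⟨s, hs, f1, f2, f3, f4⟩ := harith (Complex.normSq (a - c)) t _ _ hN hsa hsb ht
  -- the scaling factor
  set l : ℝ := σ / s with hl
  have hlpos : 0 < l := div_pos hσ hs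
  have hls : l * s = σ := by rw [hl]; field_simp
  obtain ⟨G, hsolv, hinv, htr⟩ := hgroup n hn ((l : ℂ) * a)
  have ha : (l : ℂ) * a ∈ Dorb n ((l : ℂ) * a) := ⟨1, one_pow n, Or.inl (one_mul _).symm⟩
  have hscaleD : ∀ x : ℂ, x ∈ Dorb n a → (l : ℂ) * x ∈ Dorb n ((l : ℂ) * a) := by
    rintro x ⟨z, hz, hx | hx⟩
    · exact ⟨z, hz, Or.inl (by rw [hx]; ring)⟩
    · refine ⟨z, hz, Or.inr ?_⟩
      rw [hx, map_mul, Complex.conj_ofReal]
      ring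
  have hmem : ∀ x y : ℂ, x ∈ Dorb n ((l : ℂ) * a) → y ∈ Dorb n ((l : ℂ) * a) →
      mk2 x y ∈ Xset n ((l : ℂ) * a) := by
    intro x y hx hy
    refine ⟨?_, ?_⟩
    · rw [(hmk x y).1]; exact hx
    · rw [(hmk x y).2]; exact hy
  have hsym : Complex.normSq (d - b) = Complex.normSq (b - d) := by
    rw [← neg_sub, Complex.normSq_neg]
  -- distances scale
  have hsc : ∀ x0 x1 y0 y1 : ℂ,
      dist (mk2 ((l : ℂ) * x0) ((l : ℂ) * x1)) (mk2 ((l : ℂ) * y0) ((l : ℂ) * y1))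
        = l * Real.sqrt (Complex.normSq (x0 - y0) + Complex.normSq (x1 - y1)) := by
    intro x0 x1 y0 y1
    rw [hdist, ← mul_sub, ← mul_sub, Complex.normSq_mul, Complex.normSq_mul, Complex.normSq_ofReal,
      ← mul_add, Real.sqrt_mul (mul_self_nonneg l), Real.sqrt_mul_self hlpos.le]
  refine ⟨Xset n ((l : ℂ) * a), G, hfin n hn _, hsolv, hinv, htr,
    mk2 ((l : ℂ) * a) ((l : ℂ) * a), hmem _ _ ha ha,
    mk2 ((l : ℂ) * b) ((l : ℂ) * d), hmem _ _ (hscaleD b hb) (hscaleD d hd),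
    mk2 ((l : ℂ) * c) ((l : ℂ) * c), hmem _ _ (hscaleD c hc) (hscaleD c hc),
    mk2 ((l : ℂ) * d) ((l : ℂ) * b), hmem _ _ (hscaleD d hd) (hscaleD b hb), ?_, ?_, ?_, ?_, ?_, ?_⟩
  · rw [hsc, e1, f1, ← mul_assoc, hls]
  · rw [hsc, add_comm, e1, f1, ← mul_assoc, hls]
  · rw [hsc, e2, f2, ← mul_assoc, hls]
  · rw [hsc, add_comm, e2, f2, ← mul_assoc, hls]
  · rw [hsc, ← two_mul, f3, ← mul_assoc, hls]
  · rw [hsc, hsym, ← two_mul, e3, f4, ← hls]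
    ring

end Vale.Agent.Lib.P058.H46
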