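import Mathlib
import Vale.Agent.Lib.P058.Defs

/-!
# P058: the soluble group acting transitively on `Xset n a` (from the leaf lemmas as hypotheses)
-/

namespace Vale.Agent.Lib.P058.H46

open Vale.Agent.Lib.P058

/-- The isometries of `E2` that map `X` into itself, together with their inverses. -/
def stabSub (X : Set E2) : Subgroup (E2 ≃ᵢ E2) where
  carrier := {f | (∀ p ∈ X, f p ∈ X) ∧ (∀ p ∈ X, f⁻¹ p ∈ X)}
  mul_mem' := by
    intro f g hf hg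
    refine ⟨fun p hp => ?_, fun p hp => ?_⟩
    · rw [IsometryEquiv.mul_apply]
      exact hf.1 _ (hg.1 p hp)
    · rw [mul_inv_rev, IsometryEquiv.mul_apply]
      exact hg.2 _ (hf.2 p hp)
  one_mem' := by
    refine ⟨fun p hp => ?_, fun p hp => ?_⟩
    · simpa using hp
    · simpa using hp
  inv_mem' := by
    intro f hf
    refine ⟨hf.2, ?_⟩
    rw [inv_inv]
    exact hf.1

theorem exists_group_of
    (hsolv : Group.IsSolvable (ℂ ≃ₗᵢ[ℝ] ℂ))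
    (happ : ∀ (g : (ℂ ≃ₗᵢ[ℝ] ℂ) × (ℂ ≃ₗᵢ[ℝ] ℂ)) (p : E2),
      pairAct g p 0 = g.1 (p 0) ∧ pairAct g p 1 = g.2 (p 1))
    (hone : pairAct 1 = 1)
    (hmul : ∀ g h : (ℂ ≃ₗᵢ[ℝ] ℂ) × (ℂ ≃ₗᵢ[ℝ] ℂ), pairAct (g * h) = pairAct g * pairAct h)
    (n : ℕ) (a : ℂ)
    (htrans : ∀ {u v : ℂ}, u ∈ Dorb n a → v ∈ Dorb n a →
      ∃ σ : ℂ ≃ₗᵢ[ℝ] ℂ, σ u = v ∧ (∀ w ∈ Dorb n a, σ w ∈ Dorb n a) ∧
        (∀ w ∈ Dorb n a, σ.symm w ∈ Dorb n a)) :
    ∃ G : Subgroup (E2 ≃ᵢ E2), Group.IsSolvable G ∧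
      (∀ g ∈ G, ∀ p ∈ Xset n a, g p ∈ Xset n a) ∧
      (∀ p ∈ Xset n a, ∀ q ∈ Xset n a, ∃ g ∈ G, g p = q) := by
  classical
  let pairHom : ((ℂ ≃ₗᵢ[ℝ] ℂ) × (ℂ ≃ₗᵢ[ℝ] ℂ)) →* (E2 ≃ᵢ E2) :=
    { toFun := pairAct
      map_one' := hone
      map_mul' := hmul }
  have hpH : ∀ g, pairHom g = pairAct g := fun g => rfl
  have := hsolv
  have hr : Group.IsSolvable pairHom.range :=
    Group.isSolvable_of_surjective (f := pairHom.rangeRestrict) pairHom.rangeRestrict_surjective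
  refine ⟨pairHom.range ⊓ stabSub (Xset n a), ?_, ?_, ?_⟩
  · exact Group.isSolvable_of_isSolvable_injective
      (f := Subgroup.inclusion (inf_le_left : pairHom.range ⊓ stabSub (Xset n a) ≤ pairHom.range))
      (Subgroup.inclusion_injective _)
  · intro g hg p hp
    exact (hg.2).1 p hp
  · intro p hp q hq
    obtain ⟨σ0, h0, h0a, h0b⟩ := htrans hp.1 hq.1
    obtain ⟨σ1, h1, h1a, h1b⟩ := htrans hp.2 hq.2
    refine ⟨pairHom (σ0, σ1), ⟨⟨(σ0, σ1), rfl⟩, ?_, ?_⟩, ?_⟩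
    · intro p' hp'
      rw [hpH]
      exact ⟨by rw [(happ _ _).1]; exact h0a _ hp'.1, by rw [(happ _ _).2]; exact h1a _ hp'.2⟩
    · intro p' hp'
      rw [← map_inv, hpH]
      refine ⟨?_, ?_⟩
      · rw [(happ _ _).1]
        exact h0b _ hp'.1
      · rw [(happ _ _).2]
        exact h1b _ hp'.2
    · rw [hpH]
      apply PiLp.ext
      intro i
      fin_cases i
      · exact ((happ _ _).1).trans h0
      · exact ((happ _ _).2).trans h1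

end Vale.Agent.Lib.P058.H46
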