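import Mathlib
import Vale.Agent.Lib.P058.Defs
import Vale.Agent.Lib.P058.helper22.SolvO2
import Vale.Agent.Lib.P058.helper99.PairAct
import Vale.Agent.Lib.P058.helper11.DorbTrans
import Vale.Agent.Lib.P058.helper23.XsetFinite
import Vale.Agent.Lib.P058.helper16.KitePoints
import Vale.Agent.Lib.P058.helper69.KiteAlgebra
import Vale.Agent.Lib.P058.helper45.DistMk
import Vale.Agent.Lib.P058.helper46.GroupOf
import Vale.Agent.Lib.P058.helper46.AssemblyOf

/-!
# P058: cyclic kites with side ratio `sin (π j / n) : sin (π k / n)` lie in a finite set with a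
soluble transitive group of isometries
-/

namespace Vale.Agent.Lib.P058.H46

open Vale.Agent.Lib.P058

/-- The soluble group acting transitively on `Xset n a`. -/
theorem exists_group (n : ℕ) (hn : 0 < n) (a : ℂ) :
    ∃ G : Subgroup (E2 ≃ᵢ E2), Group.IsSolvable G ∧
      (∀ g ∈ G, ∀ p ∈ Xset n a, g p ∈ Xset n a) ∧
      (∀ p ∈ Xset n a, ∀ q ∈ Xset n a, ∃ g ∈ G, g p = q) :=
  exists_group_of H22.isSolvable_O2 H99.pairAct_apply H99.pairAct_one H99.pairAct_mul n a
    (fun hu hv => H11.Dorb_trans n hn a hu hv)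

/-- For all `n`, `j`, `k` with `0 < j`, `0 < k`, `2 j ≤ n`, `2 k ≤ n`, `j + k < n` and every
`σ > 0`, the cyclic kite with sides `σ sin (π j / n)`, `σ sin (π j / n)`, `σ sin (π k / n)`,
`σ sin (π k / n)` is a subset of a finite set of `ℂ²` with a soluble transitive group of
isometries. -/
theorem kite_soluble (n j k : ℕ) (hj : 0 < j) (hk : 0 < k) (hjn : 2 * j ≤ n) (hkn : 2 * k ≤ n)
    (hjk : j + k < n) (σ : ℝ) (hσ : 0 < σ) :
    ∃ (X : Set (EuclideanSpace ℂ (Fin 2)))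
      (G : Subgroup (EuclideanSpace ℂ (Fin 2) ≃ᵢ EuclideanSpace ℂ (Fin 2))),
      X.Finite ∧ Group.IsSolvable G ∧
      (∀ g ∈ G, ∀ p ∈ X, g p ∈ X) ∧
      (∀ p ∈ X, ∀ q ∈ X, ∃ g ∈ G, g p = q) ∧
      ∃ a ∈ X, ∃ b ∈ X, ∃ c ∈ X, ∃ d ∈ X,
        dist a b = σ * Real.sin (Real.pi * j / n) ∧ dist a d = σ * Real.sin (Real.pi * j / n) ∧
        dist c b = σ * Real.sin (Real.pi * k / n) ∧ dist c d = σ * Real.sin (Real.pi * k / n) ∧
        dist a c = σ * Real.sqrt (Real.sin (Real.pi * j / n) ^ 2 + Real.sin (Real.pi * k / n) ^ 2) ∧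
        dist b d = 2 * σ * Real.sin (Real.pi * j / n) * Real.sin (Real.pi * k / n)
          / Real.sqrt (Real.sin (Real.pi * j / n) ^ 2 + Real.sin (Real.pi * k / n) ^ 2) :=
  kite_soluble_of exists_group H23.Xset_finite H16.kite_points H69.kite_norms H69.kite_dist_arith
    H45.mk2_apply H45.dist_mk2 n j k hj hk hjn hkn hjk σ hσ

end Vale.Agent.Lib.P058.H46
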