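import Mathlib
import Vale.Agent.Lib.P058.Defs
import Vale.Agent.Lib.P058.helper27.ToR4
import Vale.Agent.Lib.P058.helper46.Final

/-!
# P058: the kite theorem in `EuclideanSpace ℝ (Fin 4)`

`H46.kite_soluble` (in `ℂ²`) moved to `ℝ⁴` along the isometry of `H27.to_R4`.
-/

namespace Vale.Agent.Lib.P058.H46

open Vale.Agent.Lib.P058

/-- For all `n`, `j`, `k` with `0 < j`, `0 < k`, `2 j ≤ n`, `2 k ≤ n`, `j + k < n` and every
`σ > 0`, the cyclic kite with sides `σ sin (π j / n)`, `σ sin (π j / n)`, `σ sin (π k / n)`,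
`σ sin (π k / n)` is a subset of a finite set of `ℝ⁴` with a soluble transitive group of
isometries. -/
theorem kite_soluble_R4 (n j k : ℕ) (hj : 0 < j) (hk : 0 < k) (hjn : 2 * j ≤ n)
    (hkn : 2 * k ≤ n) (hjk : j + k < n) (σ : ℝ) (hσ : 0 < σ) :
    ∃ (X : Set (EuclideanSpace ℝ (Fin 4)))
      (G : Subgroup (EuclideanSpace ℝ (Fin 4) ≃ᵢ EuclideanSpace ℝ (Fin 4))),
      X.Finite ∧ Group.IsSolvable G ∧
      (∀ g ∈ G, ∀ p ∈ X, g p ∈ X) ∧
      (∀ p ∈ X, ∀ q ∈ X, ∃ g ∈ G, g p = q) ∧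
      ∃ a ∈ X, ∃ b ∈ X, ∃ c ∈ X, ∃ d ∈ X,
        dist a b = σ * Real.sin (Real.pi * j / n) ∧ dist a d = σ * Real.sin (Real.pi * j / n) ∧
        dist c b = σ * Real.sin (Real.pi * k / n) ∧ dist c d = σ * Real.sin (Real.pi * k / n) ∧
        dist a c = σ * Real.sqrt (Real.sin (Real.pi * j / n) ^ 2 + Real.sin (Real.pi * k / n) ^ 2) ∧
        dist b d = 2 * σ * Real.sin (Real.pi * j / n) * Real.sin (Real.pi * k / n)
          / Real.sqrt (Real.sin (Real.pi * j / n) ^ 2 + Real.sin (Real.pi * k / n) ^ 2) := by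
  obtain ⟨X, G, hfin, hsol, hinv, htr, a, ha, b, hb, c, hc, d, hd, h1, h2, h3, h4, h5, h6⟩ :=
    kite_soluble n j k hj hk hjn hkn hjk σ hσ
  obtain ⟨X', G', hfin', hsol', hinv', htr', a', ha', b', hb', c', hc', d', hd',
      e1, e2, e3, e4, e5, e6⟩ :=
    H27.to_R4 X G hfin hsol hinv htr a b c d ha hb hc hd
  exact ⟨X', G', hfin', hsol', hinv', htr', a', ha', b', hb', c', hc', d', hd',
    e1.trans h1, e2.trans h2, e3.trans h3, e4.trans h4, e5.trans h5, e6.trans h6⟩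

end Vale.Agent.Lib.P058.H46
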