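import Mathlib

/-!
# P058: a cyclic kite that lies in no finite transitive set (analytic and algebraic core)

`K_t` is the cyclic kite with circumradius `σ` and `cos θ = t`: squared distances
`|ac|² = 4σ²`, `|ab|² = |ad|² = 2σ²(1 - t)`, `|cb|² = |cd|² = 2σ²(1 + t)`, `|bd|² = 4σ²(1 - t²)`.
-/

namespace Vale.Agent.Lib.P058.NotSub

/-- The four points of the kite satisfy `b + d = (1 + t) a + (1 - t) c`; as a statement on
squared distances to an arbitrary point `x`. -/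
theorem kite_identity {E : Type*} [NormedAddCommGroup E] [InnerProductSpace ℝ E]
    (a b c d : E) (σ t : ℝ)
    (hab : dist a b ^ 2 = 2 * σ ^ 2 * (1 - t)) (had : dist a d ^ 2 = 2 * σ ^ 2 * (1 - t))
    (hcb : dist c b ^ 2 = 2 * σ ^ 2 * (1 + t)) (hcd : dist c d ^ 2 = 2 * σ ^ 2 * (1 + t))
    (hac : dist a c ^ 2 = 4 * σ ^ 2) (hbd : dist b d ^ 2 = 4 * σ ^ 2 * (1 - t ^ 2)) (x : E) :
    dist b x ^ 2 + dist d x ^ 2 = (1 + t) * dist a x ^ 2 + (1 - t) * dist c x ^ 2 := by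
  obtain ⟨B, hB⟩ : ∃ B : E, B = b - a := ⟨_, rfl⟩
  obtain ⟨C, hC⟩ : ∃ C : E, C = c - a := ⟨_, rfl⟩
  obtain ⟨F, hF⟩ : ∃ F : E, F = d - a := ⟨_, rfl⟩
  obtain ⟨Y, hY⟩ : ∃ Y : E, Y = x - a := ⟨_, rfl⟩
  have nB : ‖B‖ ^ 2 = 2 * σ ^ 2 * (1 - t) := by
    rw [hB, ← dist_eq_norm, dist_comm]; exact hab
  have nF : ‖F‖ ^ 2 = 2 * σ ^ 2 * (1 - t) := by
    rw [hF, ← dist_eq_norm, dist_comm]; exact had
  have nC : ‖C‖ ^ 2 = 4 * σ ^ 2 := by
    rw [hC, ← dist_eq_norm, dist_comm]; exact hac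
  have nBC : ‖B - C‖ ^ 2 = 2 * σ ^ 2 * (1 + t) := by
    have : B - C = b - c := by rw [hB, hC]; abel
    rw [this, ← dist_eq_norm, dist_comm]; exact hcb
  have nFC : ‖F - C‖ ^ 2 = 2 * σ ^ 2 * (1 + t) := by
    have : F - C = d - c := by rw [hF, hC]; abel
    rw [this, ← dist_eq_norm, dist_comm]; exact hcd
  have nBF : ‖B - F‖ ^ 2 = 4 * σ ^ 2 * (1 - t ^ 2) := by
    have : B - F = b - d := by rw [hB, hF]; abel
    rw [this, ← dist_eq_norm]; exact hbd
  have iBC : inner ℝ (B) C = 2 * σ ^ 2 * (1 - t) := by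
    have := norm_sub_sq_real B C
    linarith
  have iFC : inner ℝ (F) C = 2 * σ ^ 2 * (1 - t) := by
    have := norm_sub_sq_real F C
    linarith
  have iBF : inner ℝ (B) F = -(2 * σ ^ 2 * t * (1 - t)) := by
    have := norm_sub_sq_real B F
    linarith
  -- the vector `e = B + F - (1 - t) C` vanishes
  have he : B + F - (1 - t) • C = 0 := by
    have h0 : ‖B + F - (1 - t) • C‖ ^ 2 = 0 := by
      rw [norm_sub_sq_real, norm_add_sq_real, inner_add_left, real_inner_smul_right,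
        real_inner_smul_right, norm_smul, mul_pow, Real.norm_eq_abs, sq_abs, nB, nF, nC, iBC, iFC,
        iBF]
      ring
    have h1 : ‖B + F - (1 - t) • C‖ = 0 := by
      exact pow_eq_zero_iff (two_ne_zero) |>.mp h0
    exact norm_eq_zero.mp h1
  have hin : inner ℝ (B) Y + inner ℝ (F) Y = (1 - t) * inner ℝ (C) Y := by
    have h2 : inner ℝ (B + F - (1 - t) • C) Y = 0 := by rw [he, inner_zero_left]
    rw [inner_sub_left, inner_add_left, real_inner_smul_left] at h2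
    linarith
  have dB : dist b x ^ 2 = ‖B‖ ^ 2 - 2 * inner ℝ (B) Y + ‖Y‖ ^ 2 := by
    have : b - x = B - Y := by rw [hB, hY]; abel
    rw [dist_eq_norm, this, norm_sub_sq_real]
  have dF : dist d x ^ 2 = ‖F‖ ^ 2 - 2 * inner ℝ (F) Y + ‖Y‖ ^ 2 := by
    have : d - x = F - Y := by rw [hF, hY]; abel
    rw [dist_eq_norm, this, norm_sub_sq_real]
  have dC : dist c x ^ 2 = ‖C‖ ^ 2 - 2 * inner ℝ (C) Y + ‖Y‖ ^ 2 := by
    have : c - x = C - Y := by rw [hC, hY]; abel
    rw [dist_eq_norm, this, norm_sub_sq_real]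
  have dA : dist a x ^ 2 = ‖Y‖ ^ 2 := by
    rw [dist_comm, dist_eq_norm, hY]
  rw [dB, dF, dC, dA, nB, nF, nC]
  linear_combination (-2 : ℝ) * hin

/-- The norm argument: a real solution of the kite relation with parameter outside `[-1, 1]`
is invariant under `g`. -/
theorem norm_arg {ι : Type*} [Fintype ι] (g h k : Equiv.Perm ι) (z : ι → ℝ) (t' : ℝ)
    (h1 : 1 < |t'|)
    (heq : ∀ x, z (h x) + z (k x) = (1 + t') * z x + (1 - t') * z (g x)) :
    ∀ x, z x = z (g x) := by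
  have eh : ∑ x, (z (h x)) ^ 2 = ∑ x, (z x) ^ 2 := Equiv.sum_comp h (fun x => (z x) ^ 2)
  have ek : ∑ x, (z (k x)) ^ 2 = ∑ x, (z x) ^ 2 := Equiv.sum_comp k (fun x => (z x) ^ 2)
  have eg : ∑ x, (z (g x)) ^ 2 = ∑ x, (z x) ^ 2 := Equiv.sum_comp g (fun x => (z x) ^ 2)
  have k1 : ∑ x, (z (h x) + z (k x)) ^ 2 + ∑ x, (z (h x) - z (k x)) ^ 2
      = 4 * ∑ x, (z x) ^ 2 := by
    rw [← Finset.sum_add_distrib]
    have : ∀ x, (z (h x) + z (k x)) ^ 2 + (z (h x) - z (k x)) ^ 2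
        = 2 * (z (h x)) ^ 2 + 2 * (z (k x)) ^ 2 := fun x => by ring
    rw [Finset.sum_congr rfl (fun x _ => this x), Finset.sum_add_distrib, ← Finset.mul_sum,
      ← Finset.mul_sum, eh, ek]
    ring
  have k2 : ∑ x, (z (h x) + z (k x)) ^ 2
      = 4 * ∑ x, (z x) ^ 2 + (t' ^ 2 - 1) * ∑ x, (z x - z (g x)) ^ 2 := by
    have : ∀ x, (z (h x) + z (k x)) ^ 2
        = (2 + 2 * t') * (z x) ^ 2 + (2 - 2 * t') * (z (g x)) ^ 2
          + (t' ^ 2 - 1) * (z x - z (g x)) ^ 2 := fun x => by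
      rw [heq x]; ring
    rw [Finset.sum_congr rfl (fun x _ => this x), Finset.sum_add_distrib, Finset.sum_add_distrib,
      ← Finset.mul_sum, ← Finset.mul_sum, ← Finset.mul_sum, eg]
    ring
  have k3 : 0 ≤ ∑ x, (z (h x) - z (k x)) ^ 2 := Finset.sum_nonneg (fun x _ => sq_nonneg _)
  have k4 : 0 ≤ ∑ x, (z x - z (g x)) ^ 2 := Finset.sum_nonneg (fun x _ => sq_nonneg _)
  have ht : 0 < t' ^ 2 - 1 := by
    have : 1 < t' ^ 2 := by
      rw [← sq_abs]; nlinarith [abs_nonneg t']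
    linarith
  have k5 : ∑ x, (z x - z (g x)) ^ 2 = 0 := by
    have : (t' ^ 2 - 1) * ∑ x, (z x - z (g x)) ^ 2 ≤ 0 := by linarith
    have h6 : ∑ x, (z x - z (g x)) ^ 2 ≤ 0 := by
      by_contra hc
      have := mul_pos ht (not_le.mp hc)
      linarith
    linarith
  intro x
  have := (Finset.sum_eq_zero_iff_of_nonneg (fun x _ => sq_nonneg (z x - z (g x)))).mp k5 x
    (Finset.mem_univ x)
  have h7 : z x - z (g x) = 0 := by
    exact pow_eq_zero_iff (two_ne_zero) |>.mp this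
  linarith

/-- The algebraic core: a real solution `y` of the kite relation with parameter
`t = u + v √D` (`u`, `v` rational, `√D` irrational) whose conjugate `u - v √D` is outside
`[-1, 1]` is invariant under `g`. -/
theorem core {ι : Type*} [Fintype ι] (g h k : Equiv.Perm ι) (y : ι → ℝ) (u v : ℚ) (D : ℕ)
    (hD : Irrational (Real.sqrt D)) (h1 : 1 < |(u : ℝ) - v * Real.sqrt D|)
    (heq : ∀ x, y (h x) + y (k x)
      = (1 + ((u : ℝ) + v * Real.sqrt D)) * y x + (1 - ((u : ℝ) + v * Real.sqrt D)) * y (g x)) :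
    ∀ x, y x = y (g x) := by
  obtain ⟨s, hs_def⟩ : ∃ s : ℝ, s = Real.sqrt D := ⟨_, rfl⟩
  rw [← hs_def] at hD h1 heq
  have hs : s * s = D := by rw [hs_def]; exact Real.mul_self_sqrt (Nat.cast_nonneg D)
  -- for every rational linear functional, the conjugate vector is `g`-invariant
  have key : ∀ ψ : Module.Dual ℚ ℝ, ∀ x, ψ (y x) = ψ (y (g x)) := by
    intro ψ
    have e1 : ∀ x, ψ (y (h x)) + ψ (y (k x))
        = (1 + u) * ψ (y x) + v * ψ (s * y x) + (1 - u) * ψ (y (g x)) - v * ψ (s * y (g x)) := by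
      intro x
      have e : y (h x) + y (k x) = ((1 + u : ℚ)) • y x + (v : ℚ) • (s * y x)
          + ((1 - u : ℚ)) • y (g x) - (v : ℚ) • (s * y (g x)) := by
        rw [heq x]; simp only [Rat.smul_def]; push_cast; ring
      have := congrArg ψ e
      simp only [map_add, map_sub, map_smul, smul_eq_mul] at this
      exact this
    have e2 : ∀ x, ψ (s * y (h x)) + ψ (s * y (k x))
        = (1 + u) * ψ (s * y x) + (v * D) * ψ (y x) + (1 - u) * ψ (s * y (g x))
          - (v * D) * ψ (y (g x)) := by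
      intro x
      have e : s * y (h x) + s * y (k x) = ((1 + u : ℚ)) • (s * y x) + ((v * D : ℚ)) • y x
          + ((1 - u : ℚ)) • (s * y (g x)) - ((v * D : ℚ)) • y (g x) := by
        simp only [Rat.smul_def]; push_cast
        have := heq x
        linear_combination s * this + (v * y x - v * y (g x)) * hs
      have := congrArg ψ e
      simp only [map_add, map_sub, map_smul, smul_eq_mul] at this
      exact this
    -- the conjugate vector
    have hz := norm_arg g h k (fun x => ((ψ (s * y x) : ℚ) : ℝ) - s * ((ψ (y x) : ℚ) : ℝ))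
      ((u : ℝ) - v * s) h1 (by
        intro x
        have h1c : ((ψ (y (h x)) : ℚ) : ℝ) + ((ψ (y (k x)) : ℚ) : ℝ)
            = (1 + u) * ((ψ (y x) : ℚ) : ℝ) + v * ((ψ (s * y x) : ℚ) : ℝ)
              + (1 - u) * ((ψ (y (g x)) : ℚ) : ℝ) - v * ((ψ (s * y (g x)) : ℚ) : ℝ) := by
          have := congrArg (fun q : ℚ => (q : ℝ)) (e1 x)
          push_cast at this
          exact this
        have h2c : ((ψ (s * y (h x)) : ℚ) : ℝ) + ((ψ (s * y (k x)) : ℚ) : ℝ)
            = (1 + u) * ((ψ (s * y x) : ℚ) : ℝ) + (v * D) * ((ψ (y x) : ℚ) : ℝ)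
              + (1 - u) * ((ψ (s * y (g x)) : ℚ) : ℝ) - (v * D) * ((ψ (y (g x)) : ℚ) : ℝ) := by
          have := congrArg (fun q : ℚ => (q : ℝ)) (e2 x)
          push_cast at this
          exact this
        linear_combination h2c - s * h1c
          - (v * ((ψ (y x) : ℚ) : ℝ) - v * ((ψ (y (g x)) : ℚ) : ℝ)) * hs)
    intro x
    by_contra hne
    have hx := hz x
    have hq : ψ (y x) - ψ (y (g x)) ≠ 0 := sub_ne_zero.mpr hne
    have hq' : (((ψ (y x) - ψ (y (g x)) : ℚ)) : ℝ) ≠ 0 := by exact_mod_cast hq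
    apply hD.ne_rat ((ψ (s * y x) - ψ (s * y (g x))) / (ψ (y x) - ψ (y (g x))))
    push_cast
    push_cast at hq'
    rw [eq_div_iff hq']
    linarith
  intro x
  have h0 : y x - y (g x) = 0 := by
    apply (Module.forall_dual_apply_eq_zero_iff ℚ (y x - y (g x))).mp
    intro ψ
    rw [map_sub, key ψ x, sub_self]
  linarith

end Vale.Agent.Lib.P058.NotSub
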