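import Mathlib
import Vale.Agent.Lib.P058.helper46.NotSubA

/-!
# P058: a cyclic kite that lies in no finite transitive set (assembly)
-/

namespace Vale.Agent.Lib.P058.NotSub

/-- An isometry of the space that maps the finite set `X` into itself permutes `X`. -/
theorem exists_perm {E : Type*} [MetricSpace E] (X : Set E) [Fintype X] (f : E ≃ᵢ E)
    (hf : ∀ x ∈ X, f x ∈ X) :
    ∃ e : Equiv.Perm X, ∀ x : X, ((e x : X) : E) = f x := by
  have hinj : Function.Injective (fun x : X => (⟨f x, hf x x.2⟩ : X)) := by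
    intro x y hxy
    have : f (x : E) = f (y : E) := congrArg Subtype.val hxy
    exact Subtype.ext (f.injective this)
  exact ⟨Equiv.ofBijective _ (Finite.injective_iff_bijective.mp hinj), fun x => rfl⟩

/-- The cyclic kite `K_t` with circumradius `σ > 0` and `cos θ = t = u + v √D` (`u`, `v`
rational, `√D` irrational) lies in no finite transitive subset of a Euclidean space as soon as
the conjugate `u - v √D` is outside `[-1, 1]`. -/
theorem kite_not_subtransitive (u v : ℚ) (D : ℕ) (hD : Irrational (Real.sqrt D))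
    (h1 : 1 < |(u : ℝ) - v * Real.sqrt D|)
    (n : ℕ) (X : Set (EuclideanSpace ℝ (Fin n))) (hfin : X.Finite)
    (htr : ∀ p ∈ X, ∀ q ∈ X, ∃ f : EuclideanSpace ℝ (Fin n) ≃ᵢ EuclideanSpace ℝ (Fin n),
      (∀ x ∈ X, f x ∈ X) ∧ f p = q)
    (σ : ℝ) (hσ : 0 < σ) (a b c d : EuclideanSpace ℝ (Fin n))
    (ha : a ∈ X) (hb : b ∈ X) (hc : c ∈ X) (hd : d ∈ X)
    (hab : dist a b ^ 2 = 2 * σ ^ 2 * (1 - ((u : ℝ) + v * Real.sqrt D)))
    (had : dist a d ^ 2 = 2 * σ ^ 2 * (1 - ((u : ℝ) + v * Real.sqrt D)))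
    (hcb : dist c b ^ 2 = 2 * σ ^ 2 * (1 + ((u : ℝ) + v * Real.sqrt D)))
    (hcd : dist c d ^ 2 = 2 * σ ^ 2 * (1 + ((u : ℝ) + v * Real.sqrt D)))
    (hac : dist a c ^ 2 = 4 * σ ^ 2)
    (hbd : dist b d ^ 2 = 4 * σ ^ 2 * (1 - ((u : ℝ) + v * Real.sqrt D) ^ 2)) : False := by
  have : Fintype X := hfin.fintype
  obtain ⟨fg, hfg, hga⟩ := htr a ha c hc
  obtain ⟨fh, hfh, hha⟩ := htr a ha b hb
  obtain ⟨fk, hfk, hka⟩ := htr a ha d hd
  obtain ⟨eg, heg⟩ := exists_perm X fg hfg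
  obtain ⟨eh, heh⟩ := exists_perm X fh hfh
  obtain ⟨ek, hek⟩ := exists_perm X fk hfk
  -- squared distance from `a`, as a function on `X`
  have hdist : ∀ (f : EuclideanSpace ℝ (Fin n) ≃ᵢ EuclideanSpace ℝ (Fin n)) (e : Equiv.Perm X),
      (∀ x : X, ((e x : X) : EuclideanSpace ℝ (Fin n)) = f x) → ∀ x : X,
      dist (f a) (x : EuclideanSpace ℝ (Fin n))
        = dist a ((e.symm x : X) : EuclideanSpace ℝ (Fin n)) := by
    intro f e he x
    have h2 : (x : EuclideanSpace ℝ (Fin n)) = f ((e.symm x : X) : EuclideanSpace ℝ (Fin n)) := by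
      rw [← he (e.symm x), Equiv.apply_symm_apply]
    conv_lhs => rw [h2]
    exact f.isometry.dist_eq _ _
  have hcore := core eg.symm eh.symm ek.symm
    (fun x : X => dist a (x : EuclideanSpace ℝ (Fin n)) ^ 2) u v D hD h1 (by
      intro x
      have hk := kite_identity a b c d σ ((u : ℝ) + v * Real.sqrt D) hab had hcb hcd hac hbd
        (x : EuclideanSpace ℝ (Fin n))
      rw [← hha, ← hka, ← hga, hdist fh eh heh x, hdist fk ek hek x, hdist fg eg heg x] at hk
      exact hk)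
  have hx := hcore ⟨c, hc⟩
  have hsymm : eg.symm ⟨c, hc⟩ = ⟨a, ha⟩ := by
    rw [Equiv.symm_apply_eq]
    apply Subtype.ext
    rw [heg]
    exact hga.symm
  rw [hsymm] at hx
  simp only [dist_self] at hx
  rw [hac] at hx
  nlinarith [hσ]

end Vale.Agent.Lib.P058.NotSub
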