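import Mathlib
import Vale.Agent.Lib.P058.helper46.NotSubA
import Vale.Agent.Lib.P058.helper46.NotSubB

/-!
# P058: cyclic kites in no finite transitive set, the general criterion

If some field embedding of `ℚ(t)` into `ℝ` sends `t` outside `[-1, 1]`, the cyclic kite with
`cos θ = t` lies in no finite transitive subset of a Euclidean space.
-/

namespace Vale.Agent.Lib.P058.NotSub

open IntermediateField in
/-- The algebraic core, general form: if some field embedding `τ` of `ℚ(t)` into `ℝ` sends `t`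
outside `[-1, 1]`, a real solution `y` of the kite relation with parameter `t` is invariant
under `g`. -/
theorem core_gen {ι : Type*} [Fintype ι] (g h k : Equiv.Perm ι) (y : ι → ℝ) (t : ℝ)
    (τ : ℚ⟮t⟯ →+* ℝ) (h1 : 1 < |τ (AdjoinSimple.gen ℚ t)|)
    (heq : ∀ x, y (h x) + y (k x) = (1 + t) * y x + (1 - t) * y (g x)) :
    ∀ x, y x = y (g x) := by
  have htK : ((AdjoinSimple.gen ℚ t : ℚ⟮t⟯) : ℝ) = t := AdjoinSimple.coe_gen ℚ t
  have key : ∀ ψ : Module.Dual ℚ⟮t⟯ ℝ, ∀ x, ψ (y x) = ψ (y (g x)) := by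
    intro ψ
    have e1 : ∀ x, ψ (y (h x)) + ψ (y (k x))
        = (1 + AdjoinSimple.gen ℚ t) * ψ (y x) + (1 - AdjoinSimple.gen ℚ t) * ψ (y (g x)) := by
      intro x
      have e : y (h x) + y (k x) = (1 + AdjoinSimple.gen ℚ t : ℚ⟮t⟯) • y x
          + (1 - AdjoinSimple.gen ℚ t : ℚ⟮t⟯) • y (g x) := by
        rw [heq x, Algebra.smul_def, Algebra.smul_def]
        simp only [IntermediateField.algebraMap_apply, AddSubgroupClass.coe_sub,
          IntermediateField.coe_add, IntermediateField.coe_one, htK]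
      have := congrArg ψ e
      simp only [map_add, map_smul, smul_eq_mul] at this
      exact this
    have hz := norm_arg g h k (fun x => τ (ψ (y x))) (τ (AdjoinSimple.gen ℚ t)) h1 (by
      intro x
      have := congrArg τ (e1 x)
      simp only [map_add, map_mul, map_sub, map_one] at this
      exact this)
    intro x
    exact τ.injective (hz x)
  intro x
  have h0 : y x - y (g x) = 0 := by
    apply (Module.forall_dual_apply_eq_zero_iff ℚ⟮t⟯ (y x - y (g x))).mp
    intro ψ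
    rw [map_sub, key ψ x, sub_self]
  linarith

open IntermediateField in
/-- The cyclic kite `K_t` with circumradius `σ > 0` and `cos θ = t` lies in no finite
transitive subset of a Euclidean space as soon as some field embedding of `ℚ(t)` into `ℝ`
sends `t` outside `[-1, 1]`. -/
theorem kite_not_subtransitive_gen (t : ℝ) (τ : ℚ⟮t⟯ →+* ℝ)
    (h1 : 1 < |τ (AdjoinSimple.gen ℚ t)|)
    (n : ℕ) (X : Set (EuclideanSpace ℝ (Fin n))) (hfin : X.Finite)
    (htr : ∀ p ∈ X, ∀ q ∈ X, ∃ f : EuclideanSpace ℝ (Fin n) ≃ᵢ EuclideanSpace ℝ (Fin n),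
      (∀ x ∈ X, f x ∈ X) ∧ f p = q)
    (σ : ℝ) (hσ : 0 < σ) (a b c d : EuclideanSpace ℝ (Fin n))
    (ha : a ∈ X) (hb : b ∈ X) (hc : c ∈ X) (hd : d ∈ X)
    (hab : dist a b ^ 2 = 2 * σ ^ 2 * (1 - t))
    (had : dist a d ^ 2 = 2 * σ ^ 2 * (1 - t))
    (hcb : dist c b ^ 2 = 2 * σ ^ 2 * (1 + t))
    (hcd : dist c d ^ 2 = 2 * σ ^ 2 * (1 + t))
    (hac : dist a c ^ 2 = 4 * σ ^ 2)
    (hbd : dist b d ^ 2 = 4 * σ ^ 2 * (1 - t ^ 2)) : False := by
  have : Fintype X := hfin.fintype
  obtain ⟨fg, hfg, hga⟩ := htr a ha c hc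
  obtain ⟨fh, hfh, hha⟩ := htr a ha b hb
  obtain ⟨fk, hfk, hka⟩ := htr a ha d hd
  obtain ⟨eg, heg⟩ := exists_perm X fg hfg
  obtain ⟨eh, heh⟩ := exists_perm X fh hfh
  obtain ⟨ek, hek⟩ := exists_perm X fk hfk
  have hdist : ∀ (f : EuclideanSpace ℝ (Fin n) ≃ᵢ EuclideanSpace ℝ (Fin n)) (e : Equiv.Perm X),
      (∀ x : X, ((e x : X) : EuclideanSpace ℝ (Fin n)) = f x) → ∀ x : X,
      dist (f a) (x : EuclideanSpace ℝ (Fin n))
        = dist a ((e.symm x : X) : EuclideanSpace ℝ (Fin n)) := by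
    intro f e he x
    have h2 : (x : EuclideanSpace ℝ (Fin n)) = f ((e.symm x : X) : EuclideanSpace ℝ (Fin n)) := by
      rw [← he (e.symm x), Equiv.apply_symm_apply]
    conv_lhs => rw [h2]
    exact f.isometry.dist_eq _ _
  have hcore := core_gen eg.symm eh.symm ek.symm
    (fun x : X => dist a (x : EuclideanSpace ℝ (Fin n)) ^ 2) t τ h1 (by
      intro x
      have hk := kite_identity a b c d σ t hab had hcb hcd hac hbd
        (x : EuclideanSpace ℝ (Fin n))
      rw [← hha, ← hka, ← hga, hdist fh eh heh x, hdist fk ek hek x, hdist fg eg heg x] at hk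
      exact hk)
  have hx := hcore ⟨c, hc⟩
  have hsymm : eg.symm ⟨c, hc⟩ = ⟨a, ha⟩ := by
    rw [Equiv.symm_apply_eq]
    apply Subtype.ext
    rw [heg]
    exact hga.symm
  rw [hsymm] at hx
  simp only [dist_self] at hx
  rw [hac] at hx
  nlinarith [hσ]

end Vale.Agent.Lib.P058.NotSub
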