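import Mathlib
import Vale.Agent.Lib.P058.helper27.RatKite

/-!
# P058: the rational kite theorem in the shape `cos θ = t`

`H27.rat_kite_all` (sides `σ √A`, `σ √B`) restated for the kite with circumradius `σ` and
`cos θ = t`, `t` rational, `|t| < 1`.
-/

namespace Vale.Agent.Lib.P058.NotSub

/-- For every rational `t` with `|t| < 1` and every `σ > 0` the cyclic kite with circumradius
`σ` and `cos θ = t` lies in a finite transitive subset of some Euclidean space. -/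
theorem rat_kite_cos (t : ℚ) (ht : |t| < 1) (σ : ℝ) (hσ : 0 < σ) :
    ∃ (n : ℕ) (X : Set (EuclideanSpace ℝ (Fin n)))
      (G : Subgroup (EuclideanSpace ℝ (Fin n) ≃ᵢ EuclideanSpace ℝ (Fin n))),
      X.Finite ∧
      (∀ g ∈ G, ∀ p ∈ X, g p ∈ X) ∧
      (∀ p ∈ X, ∀ q ∈ X, ∃ g ∈ G, g p = q) ∧
      ∃ a ∈ X, ∃ b ∈ X, ∃ c ∈ X, ∃ d ∈ X,
        dist a b ^ 2 = 2 * σ ^ 2 * (1 - (t : ℝ)) ∧ dist a d ^ 2 = 2 * σ ^ 2 * (1 - (t : ℝ)) ∧
        dist c b ^ 2 = 2 * σ ^ 2 * (1 + (t : ℝ)) ∧ dist c d ^ 2 = 2 * σ ^ 2 * (1 + (t : ℝ)) ∧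
        dist a c ^ 2 = 4 * σ ^ 2 ∧ dist b d ^ 2 = 4 * σ ^ 2 * (1 - (t : ℝ) ^ 2) := by
  obtain ⟨h1, h2⟩ := abs_lt.mp ht
  have hq : (0 : ℚ) < (t.den : ℚ) := by exact_mod_cast t.den_pos
  have hnd : (t.num : ℚ) = t * t.den := by
    have := Rat.num_div_den t
    field_simp at this ⊢
    linarith [Rat.mul_den_eq_num t]
  -- the two integers `q - p`, `q + p` are positive
  have hA : (0 : ℤ) < (t.den : ℤ) - t.num := by
    have : (t.num : ℚ) < t.den := by rw [hnd]; nlinarith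
    have : (t.num : ℤ) < t.den := by exact_mod_cast this
    linarith
  have hB : (0 : ℤ) < (t.den : ℤ) + t.num := by
    have : -(t.den : ℚ) < t.num := by rw [hnd]; nlinarith
    have : -(t.den : ℤ) < t.num := by exact_mod_cast this
    linarith
  obtain ⟨A, hAdef⟩ : ∃ A : ℕ, (A : ℤ) = (t.den : ℤ) - t.num :=
    ⟨((t.den : ℤ) - t.num).toNat, Int.toNat_of_nonneg hA.le⟩
  obtain ⟨B, hBdef⟩ : ∃ B : ℕ, (B : ℤ) = (t.den : ℤ) + t.num :=
    ⟨((t.den : ℤ) + t.num).toNat, Int.toNat_of_nonneg hB.le⟩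
  have hA0 : 0 < A := by
    have : (0 : ℤ) < (A : ℤ) := by rw [hAdef]; exact hA
    exact_mod_cast this
  have hB0 : 0 < B := by
    have : (0 : ℤ) < (B : ℤ) := by rw [hBdef]; exact hB
    exact_mod_cast this
  have hqR : (0 : ℝ) < (t.den : ℝ) := by exact_mod_cast t.den_pos
  have htR : (t : ℝ) = (t.num : ℝ) / (t.den : ℝ) := by
    have := Rat.num_div_den t
    have h3 : ((t.num / t.den : ℚ) : ℝ) = (t : ℝ) := by rw [this]
    rw [← h3]; push_cast; ring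
  have hAR : (A : ℝ) = (t.den : ℝ) - (t.num : ℝ) := by
    have := congrArg (fun z : ℤ => (z : ℝ)) hAdef
    push_cast at this
    exact this
  have hBR : (B : ℝ) = (t.den : ℝ) + (t.num : ℝ) := by
    have := congrArg (fun z : ℤ => (z : ℝ)) hBdef
    push_cast at this
    exact this
  have hAB : (A : ℝ) + B = 2 * (t.den : ℝ) := by rw [hAR, hBR]; ring
  -- scale
  obtain ⟨ρ, hρ⟩ : ∃ ρ : ℝ, ρ = σ * Real.sqrt (2 / (t.den : ℝ)) := ⟨_, rfl⟩
  have hρ0 : 0 < ρ := by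
    rw [hρ]; exact mul_pos hσ (Real.sqrt_pos.mpr (by positivity))
  have hρ2 : ρ ^ 2 = σ ^ 2 * (2 / (t.den : ℝ)) := by
    rw [hρ, mul_pow, Real.sq_sqrt (by positivity)]
  obtain ⟨n, X, G, hfin, hinv, htr, a, ha, b, hb, c, hc, d, hd, e1, e2, e3, e4, e5, e6⟩ :=
    H27.rat_kite_all A B hA0 hB0 ρ hρ0
  have sA : Real.sqrt A ^ 2 = A := Real.sq_sqrt (Nat.cast_nonneg A)
  have sB : Real.sqrt B ^ 2 = B := Real.sq_sqrt (Nat.cast_nonneg B)
  have sAB : Real.sqrt ((A : ℝ) + B) ^ 2 = (A : ℝ) + B := Real.sq_sqrt (by positivity)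
  have hAB0 : (0 : ℝ) < (A : ℝ) + B := by rw [hAB]; positivity
  have sAB0 : Real.sqrt ((A : ℝ) + B) ≠ 0 := (Real.sqrt_pos.mpr hAB0).ne'
  refine ⟨n, X, G, hfin, hinv, htr, a, ha, b, hb, c, hc, d, hd, ?_, ?_, ?_, ?_, ?_, ?_⟩
  · rw [e1, mul_pow, sA, hρ2, hAR, htR]; field_simp
  · rw [e2, mul_pow, sA, hρ2, hAR, htR]; field_simp
  · rw [e3, mul_pow, sB, hρ2, hBR, htR]; field_simp
  · rw [e4, mul_pow, sB, hρ2, hBR, htR]; field_simp
  · rw [e5, mul_pow, sAB, hρ2, hAB]; field_simp; norm_num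
  · rw [e6, div_pow, mul_pow, mul_pow, mul_pow, sA, sB, sAB, hρ2, hAB, hAR, hBR, htR]
    field_simp
    ring

end Vale.Agent.Lib.P058.NotSub
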